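import Mathlib
import Vale.Agent.Lib.P243.Defs
import Vale.Agent.Lib.P243.R3.Defs

/-!
# P243 R3, module M3a: `Ahat K (q - p) ≤ 3 vol K` for `p, q ∈ K`

The statements of `M1a` and `M1b` enter as hypotheses (`M3a_Ahat_le_of`), so that this file
does not depend on files that are not yet landed.

Proof: `K + [0, t (q - p)]` lies in the homothetic copy of `K` of ratio `1 + t` about `p`, so
`t * Ahat K (q - p) = Ahat K (t (q - p)) ≤ ((1 + t)^3 - 1) vol K`; let `t → 0`.
-/

namespace Vale.Agent.Lib.P243.R3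

open MeasureTheory Set Vale.Agent.Lib.P243
open scoped Pointwise

theorem M3a_hom_image (c : E3) (r : ℝ) (K : Set E3) :
    hom c r '' K = AffineMap.homothety c r '' K := by
  apply Set.image_congr
  intro x _
  show c + r • (x - c) = AffineMap.homothety c r x
  simp [AffineMap.homothety_apply, add_comm]

theorem M3a_vol_hom (c : E3) (r : ℝ) (hr : 0 ≤ r) (K : Set E3) :
    volume (hom c r '' K) = ENNReal.ofReal (r ^ 3) * volume K := by
  rw [M3a_hom_image, Measure.addHaar_image_homothety]
  congr 2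
  rw [finrank_euclideanSpace_fin, abs_of_nonneg (by positivity)]

theorem M3a_subset {K : Set E3} (hKv : Convex ℝ K) {p q : E3} (hp : p ∈ K) (hq : q ∈ K)
    {t : ℝ} (ht : 0 ≤ t) :
    K + segment ℝ (0 : E3) (t • (q - p)) ⊆ hom p (1 + t) '' K := by
  rintro z ⟨x, hx, y, hy, rfl⟩
  obtain ⟨a, b, ha, hb, hab, rfl⟩ := hy
  have h1t : 0 < 1 + t := by linarith
  have hps : p + b • (q - p) ∈ K := by
    have : p + b • (q - p) = a • p + b • q := by
      have ha' : a = 1 - b := by linarith
      rw [ha']; module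
    rw [this]; exact hKv hp hq ha hb hab
  refine ⟨(1 + t)⁻¹ • x + (t * (1 + t)⁻¹) • (p + b • (q - p)), ?_, ?_⟩
  · exact hKv hx hps (by positivity) (by positivity) (by field_simp)
  · unfold hom
    ext i
    simp only [PiLp.add_apply, PiLp.smul_apply, PiLp.sub_apply, smul_eq_mul, PiLp.zero_apply]
    field_simp
    ring

/-- `M3a` from the statements of `M1a` (shadow formula) and `M1b` (perpendicular orthonormal
pair), taken as hypotheses. -/
theorem M3a_Ahat_le_of
    (hM1a : ∀ {K : Set E3}, IsCompact K → Convex ℝ K → K.Nonempty →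
      ∀ (a b : E3), OrthoPair a b → ∀ (w : E3), inner ℝ w a = 0 → inner ℝ w b = 0 →
      Ahat K w = ‖w‖ * (volume (planeCoords a b '' K)).toReal)
    (hM1b : ∀ w : E3, ∃ a b : E3, OrthoPair a b ∧ inner ℝ w a = 0 ∧ inner ℝ w b = 0)
    {K : Set E3} (hK : Body K) {p q : E3} (hp : p ∈ K) (hq : q ∈ K) :
    Ahat K (q - p) ≤ 3 * (volume K).toReal := by
  obtain ⟨a, b, hab, hwa, hwb⟩ := hM1b (q - p)
  have hKn : K.Nonempty := hK.int.mono interior_subset
  have hA : ∀ t : ℝ, 0 ≤ t → Ahat K (t • (q - p)) = t * Ahat K (q - p) := by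
    intro t ht
    have h1 := hM1a hK.compact hK.conv hKn a b hab (t • (q - p))
      (by rw [real_inner_smul_left, hwa, mul_zero]) (by rw [real_inner_smul_left, hwb, mul_zero])
    have h2 := hM1a hK.compact hK.conv hKn a b hab (q - p) hwa hwb
    rw [h1, h2, norm_smul, Real.norm_of_nonneg ht]; ring
  have hV0 : 0 ≤ (volume K).toReal := ENNReal.toReal_nonneg
  have hVfin : volume K ≠ ⊤ := hK.compact.measure_lt_top.ne
  have hkey : ∀ t : ℝ, 0 < t → t ≤ 1 →
      t * Ahat K (q - p) ≤ ((1 + t) ^ 3 - 1) * (volume K).toReal := by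
    intro t ht _
    rw [← hA t ht.le]
    unfold Ahat
    have hsub := M3a_subset hK.conv hp hq ht.le
    have hvol : volume (hom p (1 + t) '' K) = ENNReal.ofReal ((1 + t) ^ 3) * volume K :=
      M3a_vol_hom p (1 + t) (by linarith) K
    have hle : (volume (K + segment ℝ (0 : E3) (t • (q - p)))).toReal
        ≤ (1 + t) ^ 3 * (volume K).toReal := by
      have h1 : volume (K + segment ℝ (0 : E3) (t • (q - p)))
          ≤ ENNReal.ofReal ((1 + t) ^ 3) * volume K := by
        rw [← hvol]; exact measure_mono hsub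
      have h2 : ENNReal.ofReal ((1 + t) ^ 3) * volume K ≠ ⊤ :=
        ENNReal.mul_ne_top ENNReal.ofReal_ne_top hVfin
      calc (volume (K + segment ℝ (0 : E3) (t • (q - p)))).toReal
          ≤ (ENNReal.ofReal ((1 + t) ^ 3) * volume K).toReal := ENNReal.toReal_mono h2 h1
        _ = (1 + t) ^ 3 * (volume K).toReal := by
            rw [ENNReal.toReal_mul, ENNReal.toReal_ofReal (by positivity)]
    linarith
  apply le_of_forall_pos_le_add
  intro ε hε
  have hden : 0 < 4 * (volume K).toReal + 1 := by linarith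
  have ht0 : 0 < min 1 (ε / (4 * (volume K).toReal + 1)) := lt_min one_pos (div_pos hε hden)
  have ht1 : min 1 (ε / (4 * (volume K).toReal + 1)) ≤ 1 := min_le_left _ _
  have ht2 : min 1 (ε / (4 * (volume K).toReal + 1)) ≤ ε / (4 * (volume K).toReal + 1) :=
    min_le_right _ _
  generalize min 1 (ε / (4 * (volume K).toReal + 1)) = t at ht0 ht1 ht2
  generalize (volume K).toReal = V at hV0 hkey hden ht2 ⊢
  have h := hkey t ht0 ht1
  have h4 : 4 * t * V ≤ ε := by
    have : t * (4 * V + 1) ≤ ε := by rwa [le_div_iff₀ hden] at ht2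
    nlinarith
  have h5 : t * Ahat K (q - p) ≤ t * (3 * V + 4 * t * V) := by
    have h7 : ((1 + t) ^ 3 - 1) * V ≤ t * (3 * V + 4 * t * V) := by
      have h8 : (1 + t) ^ 3 - 1 = 3 * t + 3 * t ^ 2 + t ^ 3 := by ring
      rw [h8]
      have ht3 : t ^ 3 ≤ t ^ 2 := by nlinarith
      nlinarith [mul_nonneg hV0 (sq_nonneg t)]
    linarith
  have h6 : Ahat K (q - p) ≤ 3 * V + 4 * t * V := le_of_mul_le_mul_left h5 ht0
  linarith

end Vale.Agent.Lib.P243.R3
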